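import Vale.Agent.P232.GapPair.Bin1.Items0
import Vale.Agent.P232.GapPair.Bin1.Items1

/-! # P232: certificate for one small axis, the tree -/

namespace Vale.Agent.P232.GapPair.Bin1

/-- All items of the interval. -/
def items : List Item :=
  chunk0 ++ chunk1

def part0 : PTree := (.cutX 6650000 (.cutY 1150000 (.cutZ 1600000 (.cutZ 1200000 (.cutY 800000 (.cutZ 800000 (.pair 38 1 1) (.pair 38 1 23)) (.cutZ 800000 (.pair 38 23 1) (.pair 38 39 23))) (.cutY 800000 (.pair 38 35 3) (.cutY 1000000 (.pair 38 25 3) (.cutZ 1400000 (.pair 38 16 36) (.pair 38 17 28))))) (.cutZ 2400000 (.cutY 800000 (.cutZ 2000000 (.cutY 600000 (.pair 38 6 18) (.pair 38 29 18)) (.pair 38 6 19)) (.cutZ 2000000 (.cutY 1000000 (.pair 38 32 18) (.pair 38 33 30)) (.pair 38 37 31))) (.cutY 800000 (.pair 38 6 10) (.pair 38 37 10)))) .graph) (.cutX 6700000 (.cutY 1110000 (.cutZ 1600000 (.cutZ 1200000 (.cutY 800000 (.cutZ 800000 (.pair 40 1 1) (.pair 40 1 23)) (.cutZ 800000 (.pair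 40 39 1) (.pair 40 39 23))) (.cutY 800000 (.pair 40 35 3) (.cutY 1000000 (.pair 40 25 3) (.pair 40 41 13)))) (.cutZ 2400000 (.cutY 800000 (.cutZ 2000000 (.cutY 600000 (.pair 40 6 18) (.pair 40 29 18)) (.pair 40 6 19)) (.cutZ 2000000 (.cutY 1000000 (.pair 40 32 18) (.pair 40 33 30)) (.pair 40 37 31))) (.cutY 800000 (.pair 40 6 10) (.pair 40 37 10)))) .graph) (.cutX 6750000 (.cutY 1060000 (.cutZ 1600000 (.cutZ 1200000 (.cutY 800000 (.cutZ 800000 (.pair 42 1 1) (.pair 42 1 23)) (.cutZ 800000 (.pair 42 39 1) (.pair 42 39 23))) (.cutY 800000 (.pair 42 35 3) (.cutY 900000 (.pair 42 25 3) (.pair 42 43 44)))) (.cutZ 2400000 (.cutY 800000 (.cutZ 2000000 (.cutY 600000 (.pair 42 6 18) (.pair 42 29 18)) (.pair 42 6 19)) (.cutZ 2000000 (.cutY 900000 (.pair 42 32 18) (.pair 42 45 30)) (.pair 42 37 31))) (.cutY 800000 (.pair 42 6 10) (.pair 42 37 10)))) .graph) (.cutX 6800000 (.cutY 990000 (.cutZ 1600000 (.cutZ 1200000 (.cutY 800000 (.cutZ 800000 (.pair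 46 1 1) (.pair 46 1 23)) (.cutZ 800000 (.pair 46 12 1) (.pair 46 12 23))) (.cutY 800000 (.pair 46 35 3) (.pair 46 25 44))) (.cutZ 2400000 (.cutY 800000 (.cutZ 2000000 (.cutY 600000 (.pair 46 6 18) (.pair 46 29 18)) (.pair 46 6 19)) (.cutZ 2000000 (.pair 46 32 18) (.pair 46 32 19))) (.cutY 800000 (.pair 46 6 10) (.pair 46 32 10)))) .graph) (.cutX 6850000 (.base 14327203 0 [(4000,9998693),(14475,9995269),(45835,9985014),(97887,9967969),(170310,9944204),(262657,9913819),(374360,9876941),(504729,9833725),(652960,9784355),(818141,9729046),(999251,9668039),(1195176,9601605),(1404706,9530046),(1626550,9453690),(1859340,9372899),(2101642,9288060),(2351960,9199593),(2608753,9107944),(2870436,9013591),(3135396,8917040),(3402000,8731724),(3668604,8507266),(3933564,8260685),(4195247,7992027),(4452040,7701582),(4702358,7389900),(4944660,7057796),(5177450,6706391),(5399294,6337135),(5608824,5951864),(5804749,5552879),(5985859,5143069),(6151040,4726094),(6299271,4306702),(6429640,3891188),(6541343,3488152),(6633690,3109623),(6706113,2772478),(6758165,2499605),(6789525,2318605),(6800000,2254713)])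 (.cutX 6900000 (.base 14178039 0 [(4000,9998720),(89822,9971222),(342984,9889661),(750791,9756844),(1292794,9577472),(1941816,9358160),(2665311,9107460),(3427000,8740247),(4188689,8045580),(4912184,7176039),(5561206,6150732),(6103209,5012278),(6511016,3844774),(6764178,2833119),(6850000,2164901)]) (.cutX 6950000 (.base 14003205 0 [(4000,9998751),(172757,9945938),(662509,9791057),(1425316,9544818),(2386509,9225185),(3452000,8754047),(4517491,7744839),(5478684,6414182),(6241491,4859101),(6731243,3339529),(6900000,2034477)]) (.cutX 7000000 (.base 13819604 0 [(4000,9998784),(173981,9946976),(667284,9795075),(1435622,9553673),(2403784,9240513),(3477000,8769905),(4550216,7775494),(5518378,6468491),(6286716,4951644),(6780019,3494050),(6950000,1930165)]) .graph))))))))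

def tree : PTree := (.cutX 6550000 (.cutY 1250000 (.cutX 5600000 (.cutX 5200000 (.cutZ 1600000 (.cutY 800000 (.cutZ 1200000 (.pair 0 1 2) (.pair 0 1 3)) (.cutZ 1200000 (.pair 0 4 5) (.pair 0 4 3))) (.cutZ 2400000 (.cutY 800000 (.pair 0 6 7) (.pair 0 8 7)) (.pair 0 9 10))) (.cutZ 1600000 (.cutY 800000 (.cutZ 1200000 (.pair 11 1 5) (.pair 11 1 3)) (.cutZ 1200000 (.cutY 1000000 (.pair 11 12 5) (.cutZ 800000 .empty (.pair 11 4 4))) (.pair 11 8 13))) (.cutZ 2400000 (.cutY 800000 (.pair 11 6 7) (.pair 11 8 14)) (.pair 11 9 10)))) (.cutX 6000000 (.cutZ 1600000 (.cutY 800000 (.cutZ 1200000 (.cutZ 800000 (.pair 15 1 1) (.pair 15 1 4)) (.pair 15 1 3)) (.cutZ 1200000 (.cutY 1000000 (.cutZ 800000 (.pair 15 12 1) (.pair 15 12 4)) (.cutZ 800000 .empty (.pair 15 16 4))) (.cutY 1000000 (.pair 15 12 3) (.pair 15 17 13)))) (.cutZ 2400000 (.cutY 800000 (.cutZ 2000000 (.pair 15 6 18) (.pair 15 6 19)) (.cutZ 2000000 (.cutY 1000000 (.pair 15 8 18) (.pair 15 17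 18)) (.pair 15 8 19))) (.cutY 800000 (.pair 15 6 10) (.pair 15 8 10)))) (.cutZ 1600000 (.cutY 800000 (.cutZ 1200000 (.cutX 6200000 (.cutZ 800000 (.pair 20 1 1) (.pair 20 1 4)) (.cutZ 800000 (.pair 21 1 1) (.pair 21 1 4))) (.pair 22 1 3)) (.cutZ 1200000 (.cutX 6200000 (.cutY 1000000 (.cutZ 800000 (.pair 20 12 1) (.pair 20 12 4)) (.cutZ 800000 .empty (.pair 20 16 4))) (.cutY 1000000 (.cutZ 800000 (.pair 22 12 1) (.pair 22 12 4)) (.cutZ 800000 .empty (.pair 22 16 23)))) (.cutX 6200000 (.cutY 1000000 (.pair 20 12 3) (.cutY 1100000 (.pair 20 17 13) (.pair 20 24 13))) (.cutY 1000000 (.pair 22 25 3) (.cutX 6400000 (.cutY 1100000 (.pair 22 26 13) (.pair 27 24 13)) (.cutY 1100000 (.pair 22 26 13) (.cutZ 1400000 (.pair 22 24 13) (.pair 22 24 28)))))))) (.cutZ 2400000 (.cutY 800000 (.cutX 6200000 (.cutZ 2000000 (.pair 20 6 18) (.pair 20 6 19)) (.cutZ 2000000 (.cutX 6400000 (.cutY 600000 (.pair 27 6 18) (.pair 27 29 18)) (.cutY 600000 (.pair 22 6 18)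 (.pair 22 29 18))) (.pair 22 6 19))) (.cutX 6200000 (.cutZ 2000000 (.cutY 1000000 (.pair 20 25 18) (.pair 20 17 30)) (.pair 20 8 31)) (.cutZ 2000000 (.cutY 1000000 (.pair 22 32 18) (.cutX 6400000 (.pair 27 33 30) (.cutY 1100000 (.pair 22 33 30) (.pair 22 24 30)))) (.cutY 1000000 (.pair 22 32 31) (.pair 22 33 31))))) (.cutY 800000 (.pair 22 6 10) (.pair 22 8 10)))))) .graph) (.cutX 6600000 (.cutY 1180000 (.cutZ 1600000 (.cutY 800000 (.cutZ 1200000 (.cutZ 800000 (.pair 34 1 1) (.pair 34 1 23)) (.pair 34 35 3)) (.cutZ 1200000 (.cutZ 800000 (.pair 34 23 1) (.cutY 1000000 (.pair 34 12 23) (.pair 34 16 23))) (.cutY 1000000 (.pair 34 25 3) (.cutZ 1400000 (.pair 34 16 36) (.pair 34 17 28))))) (.cutZ 2400000 (.cutY 800000 (.cutZ 2000000 (.cutY 600000 (.pair 34 6 18) (.pair 34 29 18)) (.pair 34 6 19)) (.cutZ 2000000 (.cutY 1000000 (.pair 34 32 18) (.pair 34 33 30)) (.pair 34 37 31))) (.cutY 800000 (.pair 34 6 10) (.pair 34 37 10)))) .graph) part0))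

theorem tree_ok : PTree.ok bin items tree = true := by
  simp only [PTree.ok, Bool.and_eq_true]
  refine ⟨⟨by decide +kernel, ?_⟩, by decide +kernel⟩
  simp only [items, List.all_append, chunk0_ok, chunk1_ok, Bool.and_self]

end Vale.Agent.P232.GapPair.Bin1
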